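import Mathlib

/-! P280, C04: the last step of the bracket of the two fields of a vertex: the eigenvalues are
integers, so after multiplication by a common denominator they come from an integral functional. -/

set_option linter.all false

namespace Vale.Agent.P280.H892

theorem exists_proj : ∃ π : ℂ →ₗ[ℚ] ℚ, π 1 = 1 := by
  obtain ⟨π, hπ⟩ := LinearMap.exists_leftInverse_of_injective (Algebra.linearMap ℚ ℂ)
    (LinearMap.ker_eq_bot.2 (algebraMap ℚ ℂ).injective)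
  refine ⟨π, ?_⟩
  have h := congrArg (fun f : ℚ →ₗ[ℚ] ℚ => f 1) hπ
  simpa using h

theorem clear_den {r : ℕ} {S : Set (ℕ × (Fin r → ℤ))} {a : ℂ} {b : (Fin r → ℤ) →+ ℂ}
    {χ : Fin r → ℤ} (hχ : b χ = 2)
    (hS : ∀ x ∈ S, ∃ k : ℤ, (x.1 : ℂ) * a + b x.2 = k) :
    ∃ (N : ℤ) (α : ℂ) (β : (Fin r → ℤ) →+ ℤ), 0 < N ∧ β χ = 2 * N ∧
      ∀ x ∈ S, (N : ℂ) * ((x.1 : ℂ) * a + b x.2) = (x.1 : ℂ) * α + (β x.2 : ℂ) := by
  classical
  obtain ⟨π, hπ⟩ := exists_proj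
  set q : Fin r → ℚ := fun i => π (b (Pi.single i 1)) with hq
  set N : ℕ := ∏ i, (q i).den with hN
  have hN0 : 0 < N := Finset.prod_pos fun i _ => (q i).den_pos
  have hπb : ∀ m : Fin r → ℤ, π (b m) = ∑ i, (m i : ℚ) * q i := by
    intro m
    have h1 : m = ∑ i, m i • (Pi.single i (1 : ℤ) : Fin r → ℤ) := by
      ext j
      simp [Finset.sum_apply, Pi.single_apply]
    conv_lhs => rw [h1]
    rw [map_sum, map_sum]
    refine Finset.sum_congr rfl fun i _ => ?_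
    rw [map_zsmul, map_zsmul, zsmul_eq_mul]
  have hc : ∀ i, ∃ c : ℤ, (c : ℚ) = (N : ℚ) * q i := by
    intro i
    obtain ⟨k, hk⟩ : (q i).den ∣ N := Finset.dvd_prod_of_mem _ (Finset.mem_univ i)
    refine ⟨k * (q i).num, ?_⟩
    have h2 : (q i) * ((q i).den : ℚ) = ((q i).num : ℚ) := Rat.mul_den_eq_num (q i)
    rw [hk]
    push_cast
    rw [← h2]
    ring
  choose c hc using hc
  let β : (Fin r → ℤ) →+ ℤ :=
    { toFun := fun m => ∑ i, m i * c i
      map_zero' := by simp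
      map_add' := fun m m' => by
        rw [← Finset.sum_add_distrib]
        exact Finset.sum_congr rfl fun i _ => by rw [Pi.add_apply]; ring }
  have hβ : ∀ m, ((β m : ℤ) : ℚ) = (N : ℚ) * π (b m) := by
    intro m
    rw [hπb m, Finset.mul_sum]
    change ((∑ i, m i * c i : ℤ) : ℚ) = _
    push_cast
    exact Finset.sum_congr rfl fun i _ => by rw [hc i]; ring
  refine ⟨N, (N : ℂ) * ((π a : ℚ) : ℂ), β, by exact_mod_cast hN0, ?_, ?_⟩
  · have h3 := hβ χ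
    have h4 : π (2 : ℂ) = 2 := by
      have : (2 : ℂ) = (2 : ℚ) • (1 : ℂ) := by
        rw [Rat.smul_def]; norm_num
      rw [this, map_smul, hπ]; norm_num
    rw [hχ, h4] at h3
    have h5 : ((β χ : ℤ) : ℚ) = ((2 * (N : ℤ) : ℤ) : ℚ) := by
      rw [h3]; push_cast; ring
    exact_mod_cast h5
  · rintro x hx
    obtain ⟨k, hk⟩ := hS x hx
    have h6 : π ((x.1 : ℂ) * a + b x.2) = (k : ℚ) := by
      rw [hk]
      have : ((k : ℤ) : ℂ) = (k : ℤ) • (1 : ℂ) := by rw [zsmul_eq_mul, mul_one]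
      rw [this, map_zsmul, hπ, zsmul_eq_mul, mul_one]
    have h7 : π ((x.1 : ℂ) * a) = (x.1 : ℚ) * π a := by
      rw [← nsmul_eq_mul, map_nsmul, nsmul_eq_mul]
    rw [map_add, h7] at h6
    have h8 : ((N : ℚ) * k : ℚ) = (x.1 : ℚ) * ((N : ℚ) * π a) + ((β x.2 : ℤ) : ℚ) := by
      rw [hβ, ← h6]; ring
    rw [hk]
    have h9 : (((N : ℚ) * k : ℚ) : ℂ) =
        (((x.1 : ℚ) * ((N : ℚ) * π a) + ((β x.2 : ℤ) : ℚ) : ℚ) : ℂ) := by rw [h8]
    push_cast at h9 ⊢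
    exact h9

theorem clear_den_rat {r : ℕ} {S : Set (ℕ × (Fin r → ℤ))} {a : ℂ} {b : (Fin r → ℤ) →+ ℂ}
    {χ : Fin r → ℤ} (hχ : b χ = 2)
    (hS : ∀ x ∈ S, ∃ k : ℚ, (x.1 : ℂ) * a + b x.2 = (k : ℂ)) :
    ∃ (N : ℤ) (α : ℂ) (β : (Fin r → ℤ) →+ ℤ), 0 < N ∧ β χ = 2 * N ∧
      ∀ x ∈ S, (N : ℂ) * ((x.1 : ℂ) * a + b x.2) = (x.1 : ℂ) * α + (β x.2 : ℂ) := by
  classical
  obtain ⟨π, hπ⟩ := exists_proj
  set q : Fin r → ℚ := fun i => π (b (Pi.single i 1)) with hq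
  set N : ℕ := ∏ i, (q i).den with hN
  have hN0 : 0 < N := Finset.prod_pos fun i _ => (q i).den_pos
  have hπb : ∀ m : Fin r → ℤ, π (b m) = ∑ i, (m i : ℚ) * q i := by
    intro m
    have h1 : m = ∑ i, m i • (Pi.single i (1 : ℤ) : Fin r → ℤ) := by
      ext j
      simp [Finset.sum_apply, Pi.single_apply]
    conv_lhs => rw [h1]
    rw [map_sum, map_sum]
    refine Finset.sum_congr rfl fun i _ => ?_
    rw [map_zsmul, map_zsmul, zsmul_eq_mul]
  have hc : ∀ i, ∃ c : ℤ, (c : ℚ) = (N : ℚ) * q i := by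
    intro i
    obtain ⟨k, hk⟩ : (q i).den ∣ N := Finset.dvd_prod_of_mem _ (Finset.mem_univ i)
    refine ⟨k * (q i).num, ?_⟩
    have h2 : (q i) * ((q i).den : ℚ) = ((q i).num : ℚ) := Rat.mul_den_eq_num (q i)
    rw [hk]
    push_cast
    rw [← h2]
    ring
  choose c hc using hc
  let β : (Fin r → ℤ) →+ ℤ :=
    { toFun := fun m => ∑ i, m i * c i
      map_zero' := by simp
      map_add' := fun m m' => by
        rw [← Finset.sum_add_distrib]
        exact Finset.sum_congr rfl fun i _ => by rw [Pi.add_apply]; ring }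
  have hβ : ∀ m, ((β m : ℤ) : ℚ) = (N : ℚ) * π (b m) := by
    intro m
    rw [hπb m, Finset.mul_sum]
    change ((∑ i, m i * c i : ℤ) : ℚ) = _
    push_cast
    exact Finset.sum_congr rfl fun i _ => by rw [hc i]; ring
  refine ⟨N, (N : ℂ) * ((π a : ℚ) : ℂ), β, by exact_mod_cast hN0, ?_, ?_⟩
  · have h3 := hβ χ
    have h4 : π (2 : ℂ) = 2 := by
      have : (2 : ℂ) = (2 : ℚ) • (1 : ℂ) := by
        rw [Rat.smul_def]; norm_num
      rw [this, map_smul, hπ]; norm_num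
    rw [hχ, h4] at h3
    have h5 : ((β χ : ℤ) : ℚ) = ((2 * (N : ℤ) : ℤ) : ℚ) := by
      rw [h3]; push_cast; ring
    exact_mod_cast h5
  · rintro x hx
    obtain ⟨k, hk⟩ := hS x hx
    have h6 : π ((x.1 : ℂ) * a + b x.2) = k := by
      rw [hk]
      have : ((k : ℚ) : ℂ) = k • (1 : ℂ) := by rw [Rat.smul_def, mul_one]
      rw [this, map_smul, hπ, smul_eq_mul, mul_one]
    have h7 : π ((x.1 : ℂ) * a) = (x.1 : ℚ) * π a := by
      rw [← nsmul_eq_mul, map_nsmul, nsmul_eq_mul]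
    rw [map_add, h7] at h6
    have h8 : ((N : ℚ) * k : ℚ) = (x.1 : ℚ) * ((N : ℚ) * π a) + ((β x.2 : ℤ) : ℚ) := by
      rw [hβ, ← h6]; ring
    rw [hk]
    have h9 : (((N : ℚ) * k : ℚ) : ℂ) =
        (((x.1 : ℚ) * ((N : ℚ) * π a) + ((β x.2 : ℤ) : ℚ) : ℚ) : ℂ) := by rw [h8]
    push_cast at h9 ⊢
    exact h9

end Vale.Agent.P280.H892
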