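import Vale.Agent.P280.H224.Orb
import Vale.Agent.P280.H892.Clear

/-! P280, C04: the ladder. The eigenvalues of the bracket are rational multiples of `b χ`. -/

open DirectSum Vale.Agent.P280.T Vale.Agent.P280.H93 Vale.Agent.P280.H224

set_option linter.all false

namespace Vale.Agent.P280.H892

section
variable {M : Type} [AddCommGroup M] [DecidableEq M] {R : Type} [CommRing R] [Algebra ℂ R]
variable {𝒜 : ℕ × M → Submodule ℂ R} [GradedAlgebra 𝒜]

/-- Local nilpotency of a homogeneous field of weight `χ`, as soon as some `b χ ≠ 0`. -/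
theorem nil_of (hX : IsTorusManifold 𝒜) {χ : M} {D : Derivation ℂ R R}
    (hD : IsHField 𝒜 χ D) {b : M →+ ℂ} (hb : b χ ≠ 0) {d : ℕ} {m : M} {h : R}
    (hh : h ∈ 𝒜 (d, m)) : ∃ j : ℕ, (⇑D)^[j] h = 0 := by
  have h1 : IsHField 𝒜 (-(-χ)) D := by rw [neg_neg]; exact hD
  let b' : M →+ ℂ := (AddMonoidHom.mulLeft (-(2 / b χ))).comp b
  have h2 : b' (-χ) = 2 := by
    change -(2 / b χ) * b (-χ) = 2
    rw [map_neg]
    field_simp
  exact iter_F_eventually hX h1 h2 hh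

/-- `F E^k h = - (k λ - c k (k - 1) / 2) E^(k - 1) h` if `F h = 0`. -/
theorem lad {χ : M} {E F : Derivation ℂ R R} (hE : IsHField 𝒜 χ E) {a : ℂ} {b : M →+ ℂ}
    (hbr : ∀ (d : ℕ) (m : M), ∀ h ∈ 𝒜 (d, m), ⁅E, F⁆ h = ((d : ℂ) * a + b m) • h)
    {d : ℕ} {m : M} {h : R} (hh : h ∈ 𝒜 (d, m)) (hF : F h = 0) (k : ℕ) :
    F ((⇑E)^[k + 1] h) =
      -((((k : ℂ) + 1) * ((d : ℂ) * a + b m) - b χ * (((k : ℂ) + 1) * k / 2)) •
        (⇑E)^[k] h) := by
  have h0 : ∀ (n : ℕ), F ((⇑E)^[n + 1] h) = E (F ((⇑E)^[n] h)) -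
      ((d : ℂ) * a + b (m - n • χ)) • (⇑E)^[n] h := by
    intro n
    have h1 := hbr d (m - n • χ) _ (iter_mem hE hh n)
    rw [Derivation.commutator_apply] at h1
    rw [Function.iterate_succ_apply', ← h1]
    abel
  induction k with
  | zero =>
    rw [h0 0, Function.iterate_zero, id_eq, hF, map_zero, zero_smul, sub_zero, zero_sub]
    congr 2
    push_cast
    ring
  | succ k ih =>
    rw [h0 (k + 1), ih, map_neg, Derivation.map_smul, ← Function.iterate_succ_apply' (⇑E) k h,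
      ← neg_add', ← add_smul, map_sub, map_nsmul, nsmul_eq_mul]
    congr 2
    push_cast
    ring

/-- The ladder: eigenvalues are rational multiples of `b χ`. -/
theorem rat_of (hX : IsTorusManifold 𝒜) {χ : M} {E F : Derivation ℂ R R}
    (hE : IsHField 𝒜 χ E) (hF : IsHField 𝒜 (-χ) F) {a : ℂ} {b : M →+ ℂ} (hb : b χ ≠ 0)
    (hbr : ∀ (d : ℕ) (m : M), ∀ h ∈ 𝒜 (d, m), ⁅E, F⁆ h = ((d : ℂ) * a + b m) • h)
    {d : ℕ} {m : M} {h : R} (hh : h ∈ 𝒜 (d, m)) (hne : h ≠ 0) :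
    ∃ q : ℚ, (d : ℂ) * a + b m = (q : ℂ) * b χ := by
  classical
  have hb' : b (-χ) ≠ 0 := by rw [map_neg]; exact neg_ne_zero.2 hb
  have e1 : ∃ j : ℕ, (⇑F)^[j] h = 0 := nil_of hX hF hb' hh
  obtain ⟨j, hj⟩ : ∃ j, Nat.find e1 = j + 1 := by
    refine Nat.exists_eq_succ_of_ne_zero fun h0 => hne ?_
    have := Nat.find_spec e1
    rw [h0] at this
    exact this
  set h1 : R := (⇑F)^[j] h with hh1
  have h1ne : h1 ≠ 0 := fun h0 => Nat.find_min e1 (m := j) (by omega) h0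
  have h1F : F h1 = 0 := by
    have := Nat.find_spec e1
    rw [hj, Function.iterate_succ_apply'] at this
    exact this
  have h1m : h1 ∈ 𝒜 (d, m - j • (-χ)) := iter_mem hF hh j
  have e2 : ∃ k : ℕ, (⇑E)^[k] h1 = 0 := nil_of hX hE hb h1m
  obtain ⟨k, hk⟩ : ∃ k, Nat.find e2 = k + 1 := by
    refine Nat.exists_eq_succ_of_ne_zero fun h0 => h1ne ?_
    have := Nat.find_spec e2
    rw [h0] at this
    exact this
  have h2ne : (⇑E)^[k] h1 ≠ 0 := fun h0 => Nat.find_min e2 (m := k) (by omega) h0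
  have h2E : (⇑E)^[k + 1] h1 = 0 := by
    have := Nat.find_spec e2
    rw [hk] at this
    exact this
  have h3 := lad hE hbr h1m h1F k
  rw [h2E, map_zero, eq_comm, neg_eq_zero, smul_eq_zero] at h3
  have h4 := h3.resolve_right h2ne
  have h5 : ((k : ℂ) + 1) ≠ 0 := Nat.cast_add_one_ne_zero k
  have h6 : (d : ℂ) * a + b (m - j • (-χ)) = b χ * ((k : ℂ) / 2) := by
    have h7 : ((k : ℂ) + 1) * ((d : ℂ) * a + b (m - j • (-χ))) =
        ((k : ℂ) + 1) * (b χ * ((k : ℂ) / 2)) := by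
      linear_combination h4
    exact mul_left_cancel₀ h5 h7
  have h8 : b (m - j • (-χ)) = b m + j * b χ := by
    rw [map_sub, map_nsmul, map_neg, nsmul_eq_mul]
    ring
  refine ⟨(k : ℚ) / 2 - j, ?_⟩
  rw [h8] at h6
  push_cast
  linear_combination h6

end

end Vale.Agent.P280.H892
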