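import Vale.Agent.P280.H83.Api3
import Vale.Agent.P280.H981.Sl2
import Vale.Agent.P280.H892.Ladder

/-! P280, C04: assembly. -/

open DirectSum Vale.Agent.P280.T Vale.Agent.P280.H127

set_option linter.all false

namespace Vale.Agent.P280.H892

open Vale.Agent.P280.N

variable {r : ℕ} {R : Type} [CommRing R] [IsDomain R] [Algebra ℂ R]
  {𝒜 : ℕ × (Fin r → ℤ) → Submodule ℂ R} [GradedAlgebra 𝒜]

/-- a homogeneous global field comes from a homogeneous derivation -/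
theorem exists_hder {v : VF R} {χ : Fin r → ℤ} (hv : Glob v) (hw : HV 𝒜 χ v) :
    ∃ D : Derivation ℂ R R, toVF D = v ∧ ∀ d m, ∀ h ∈ 𝒜 (d, m), D h ∈ 𝒜 (d, m - χ) := by
  obtain ⟨D, hD⟩ := hv.exists_der
  refine ⟨D, hD, fun d m h hh => ?_⟩
  have h1 := hw d m h hh
  rw [← hD, toVF_iK] at h1
  exact h1.mem

/-- C04 from its last part: `b χ ≠ 0`. -/
theorem bracket_of_ne (H : Hyp 𝒜) {χ : Fin r → ℤ} {E F : VF R} (hE : Glob E)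
    (hF : Glob F) (hEv : HV 𝒜 χ E) (hFv : HV 𝒜 (-χ) F)
    (hne : ∀ (DE DF : Derivation ℂ R R) (a : ℂ) (b : (Fin r → ℤ) →+ ℂ),
      toVF DE = E → toVF DF = F →
      (∀ d m, ∀ h ∈ 𝒜 (d, m), DE h ∈ 𝒜 (d, m - χ)) →
      (∀ d m, ∀ h ∈ 𝒜 (d, m), DF h ∈ 𝒜 (d, m - -χ)) →
      (∀ d m, ∀ h ∈ 𝒜 (d, m), ⁅DE, DF⁆ h = ((d : ℂ) * a + b m) • h) → b χ ≠ 0) :
    ∃ (N : ℤ) (s : ℂ) (β : (Fin r → ℤ) →+ ℤ) (α : ℂ), 0 < N ∧ s ≠ 0 ∧ β χ = 2 * N ∧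
      ∀ d m, ∀ h ∈ 𝒜 (d, m), ⁅E, s • F⁆ (iK h) = -(((d : ℂ) * α + (β m : ℂ)) • iK h) := by
  obtain ⟨DE, hDE, hE1⟩ := exists_hder hE hEv
  obtain ⟨DF, hDF, hF1⟩ := exists_hder hF hFv
  obtain ⟨a, b, hab⟩ := H.tor ⁅DE, DF⁆ (by
    intro d m h hh
    rw [Derivation.commutator_apply]
    have h1 := hE1 d _ _ (hF1 d m h hh)
    have h2 := hF1 d _ _ (hE1 d m h hh)
    rw [sub_neg_eq_add, add_sub_cancel_right] at h1
    rw [sub_neg_eq_add, sub_add_cancel] at h2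
    exact Submodule.sub_mem _ h1 h2)
  have hc : b χ ≠ 0 := hne DE DF a b hDE hDF hE1 hF1 hab
  let b1 : (Fin r → ℤ) →+ ℂ := (AddMonoidHom.mulLeft (2 / b χ)).comp b
  have hb1 : ∀ m, b1 m = 2 / b χ * b m := fun m => rfl
  have hb2 : b1 χ = 2 := by rw [hb1]; field_simp
  have hS : ∀ x ∈ {x : ℕ × (Fin r → ℤ) | ∃ h ∈ 𝒜 x, h ≠ 0},
      ∃ k : ℚ, (x.1 : ℂ) * (2 / b χ * a) + b1 x.2 = (k : ℂ) := by
    rintro ⟨d, m⟩ ⟨h, hh, h0⟩
    obtain ⟨q, hq⟩ := rat_of H.hX hE1 hF1 hc hab hh h0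
    refine ⟨2 * q, ?_⟩
    rw [hb1]
    push_cast
    have h1 : (d : ℂ) * (2 / b χ * a) + 2 / b χ * b m = 2 / b χ * ((d : ℂ) * a + b m) := by ring
    rw [h1, hq]
    field_simp
  obtain ⟨N, α, β, hN, hβ, hall⟩ := clear_den_rat hb2 hS
  have hN' : (N : ℂ) ≠ 0 := by exact_mod_cast hN.ne'
  refine ⟨N, -((N : ℂ) * (2 / b χ)), β, α, hN, ?_, hβ, ?_⟩
  · exact neg_ne_zero.2 (mul_ne_zero hN' (div_ne_zero two_ne_zero hc))
  · intro d m h hh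
    rw [vlie_smul, Derivation.smul_apply, ← hDE, ← hDF, ← toVF_lie, toVF_iK, hab d m h hh,
      iK_smul]
    by_cases h0 : h = 0
    · subst h0
      rw [iK_zero, smul_zero, smul_zero, smul_zero, neg_zero]
    · rw [smul_smul, ← neg_smul]
      congr 1
      have h2 := hall (d, m) ⟨h, hh, h0⟩
      rw [hb1] at h2
      simp only at h2
      linear_combination -h2

end Vale.Agent.P280.H892
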